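import Vale.Agent.P011UW2.Step
import Vale.Agent.P011.W.HermEl

/-!
Hilbert's theorem 90 near one inside the reduced norms, quadratic extensions of number fields.
-/

open Module Filter Topology

namespace Vale.Agent.P011UW2

open Vale.Agent.P011.W (HasNrd Spl exists_sign_base real_trans nrd_pos_of)
open Vale.Agent.P011.H677.GW

/-- Elements near one with prescribed signs. -/
def SgnP (k : Type) [Field k] [TopologicalSpace k] : Prop :=
  ∀ (E : Type) [Field E] [Algebra k E] [FiniteDimensional k E], ∀ W ∈ nb k E, ∀ c : E, c ≠ 0 →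
    ∃ a ∈ W, ∀ ψ : E →+* ℝ, 0 < ψ a * ψ c

/-- Reduced norms near one, with the sign conditions. -/
def NSurS (k : Type) [Field k] [TopologicalSpace k] : Prop :=
  ∀ (Z : Type) [Field Z] [Algebra k Z] [FiniteDimensional k Z] (C : Type) [DivisionRing C]
    [Algebra Z C] [Algebra k C] [IsScalarTower k Z C] [FiniteDimensional Z C]
    [Algebra.IsCentral Z C] (d : ℕ), finrank Z C = d ^ 2 → ∀ V ∈ nb k C,
      ∀ᶠ b in nb k Z, (∀ φ : Z →+* ℝ, Spl C d φ ∨ 0 < φ b) → ∃ t ∈ V, HasNrd Z d t b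

theorem h9_two {k : Type} [Field k] [NumberField k] [TopologicalSpace k]
    [IsTopologicalDivisionRing k] [T2Space k] (hS : SgnP k) (hN : NSurS k) : H9 k 2 := by
  intro E Z _ _ _ _ _ _ _ _ _ hZ σ hσ C _ _ _ _ _ _ d hC V hV
  have hfZ : FiniteDimensional k Z := Module.Finite.trans E Z
  have hE : NumberField E := NumberField.of_module_finite k E
  have hZ' : NumberField Z := NumberField.of_module_finite k Z
  have hσ1 : σ ≠ 1 := by
    rintro rfl
    have h1 : Nat.card (Z ≃ₐ[E] Z) = 1 := Nat.card_eq_one_iff_exists.2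
      ⟨1, fun τ => by simpa using hσ τ⟩
    rw [IsGalois.card_aut_eq_finrank, hZ] at h1
    omega
  have h1 := ((nb_mul k (A := Z)).comp (((nb_alg k (IsScalarTower.toAlgHom k E Z)).comp
    tendsto_fst).prodMk (tendsto_snd (f := nb k E) (g := nb k Z)))).eventually
    ((hN Z C d hC V hV).and (nb_ne_zero k (C := Z)))
  obtain ⟨pa, hpa, pb, hpb, hab⟩ := Filter.eventually_prod_iff.mp h1
  filter_upwards [h90_near k σ hσ hpb, nb_ne_zero k (C := Z)] with a h2 ha hn ⟨x, hx⟩
  obtain ⟨y, hy, hy0, e⟩ := h2 hn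
  have hσy : σ y ≠ 0 := by rwa [Ne, EmbeddingLike.map_eq_zero_iff]
  obtain ⟨c, hc0, hc⟩ := exists_sign_base σ (real_trans hZ σ hσ1) (fun φ => Spl C d φ) hy0
    fun φ hφ => by
      rw [show y / σ y = a by rw [div_eq_iff hσy, e]]
      exact nrd_pos_of hC φ hφ (hx.ne_zero hC ha) hx
  obtain ⟨b, hb, hbc⟩ := hS E _ hpa c hc0
  obtain ⟨h3, h4⟩ : _ ∧ algebraMap E Z b * y ≠ 0 := hab hb hy
  refine ⟨algebraMap E Z b * y, h3 fun φ => (hc φ).imp_right fun h5 => ?_, h4, ?_⟩
  · have h6 : 0 < φ (algebraMap E Z b) * φ (algebraMap E Z c) := hbc (φ.comp (algebraMap E Z))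
    change 0 < φ (algebraMap E Z b * y)
    rw [map_mul] at h5 ⊢
    have h7 := mul_pos h6 h5
    by_contra h8
    nlinarith [mul_nonneg (sub_nonneg.2 (not_lt.1 h8)) (mul_self_nonneg (φ (algebraMap E Z c)))]
  · rw [map_mul, AlgEquiv.commutes, mul_left_comm, e]

end Vale.Agent.P011UW2
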