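import Vale.Agent.P011.H454.GW.Shift

/-!
Reduced norms near one: the shift to a subset of the places, with a side condition.
-/

open Module

set_option linter.unusedSectionVars false

namespace Vale.Agent.P011UW2

open Vale.Agent.P011.W (HasNrd exists_maxfield)
open Vale.Agent.P011.H775.Top (sz sz_mul sz_lt_iff sz_add_le sz_nonneg)
open Vale.Agent.P011.H454.GW (exists_nrd nrd_near_at)

variable {F D : Type} [Field F] [Infinite F] [DivisionRing D] [Algebra F D]
  [FiniteDimensional F D] [Algebra.IsCentral F D] {d N : ℕ}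

/-- **The shift.** -/
theorem shift (P : F → Prop)
    (hP : ∀ b μ (t : D), P b → HasNrd F d t μ → μ ≠ 0 → P (b / μ)) (hD : finrank F D = d ^ 2) (β : Basis (Fin N) F D) {ι : Type*} [Fintype ι]
    (a : ι → AbsoluteValue F ℝ) (ha : ∀ i, IsNonarchimedean (a i)) (s : ι → Prop)
    (wa : ∀ (x : ι → F) (ε : ℝ), 0 < ε → ∃ z : F, ∀ i, a i (z - x i) < ε)
    (hloc : ∀ i, ¬ s i → ∀ b : F, b ≠ 0 → ∀ ε : ℝ, 0 < ε →
      ∃ (x : D) (ν : F), HasNrd F d x ν ∧ a i (ν - b) < ε)
    (hns : ∀ ε : ℝ, 0 < ε → ∃ δ : ℝ, 0 < δ ∧ ∀ x : F, x ≠ 0 → P x → (∀ i, a i (x - 1) < δ) →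
      ∃ τ : D, HasNrd F d τ x ∧ ∀ i j, a i (β.repr (τ - 1) j) < ε)
    {ε : ℝ} (hε : 0 < ε) : ∃ δ : ℝ, 0 < δ ∧ ∀ b : F, b ≠ 0 → P b →
      (∀ i, s i → a i (b - 1) < δ) → ∃ τ : D, HasNrd F d τ b ∧ ∀ i, s i → ∀ j, a i (β.repr (τ - 1) j) < ε := by
  classical
  rcases isEmpty_or_nonempty ι with he | hne
  · obtain ⟨δ, hδ, h⟩ := hns ε hε
    refine ⟨δ, hδ, fun b hb hPb _ => ?_⟩
    obtain ⟨τ, h1, h2⟩ := h b hb hPb fun i => (he.false i).elim
    exact ⟨τ, h1, fun i _ => h2 i⟩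
  -- the product of two elements close to one
  let a' : {i // s i} → AbsoluteValue F ℝ := fun i => a i.1
  obtain ⟨Cm, hCm, hmul⟩ := sz_mul β a'
  set ε₁ : ℝ := min 1 (ε / (Cm + 3)) with hε₁
  have hε₁0 : 0 < ε₁ := lt_min one_pos (by positivity)
  have hε₁1 : ε₁ ≤ 1 := min_le_left _ _
  have hε₁2 : ε₁ * (Cm + 3) ≤ ε := (le_div_iff₀ (by positivity)).mp (min_le_right _ _)
  have hprod : ∀ t t' : D, (∀ i, s i → ∀ j, a i (β.repr (t - 1) j) < ε₁) →
      (∀ i, s i → ∀ j, a i (β.repr (t' - 1) j) < ε₁) →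
      ∀ i, s i → ∀ j, a i (β.repr (t * t' - 1) j) < ε := by
    intro t t' h h' i hi j
    have e1 : sz β a' (t - 1) < ε₁ := (sz_lt_iff β a' hε₁0).mpr fun i j => h i.1 i.2 j
    have e2 : sz β a' (t' - 1) < ε₁ := (sz_lt_iff β a' hε₁0).mpr fun i j => h' i.1 i.2 j
    have e3 : t * t' - 1 = (t - 1) * (t' - 1) + ((t - 1) + (t' - 1)) := by noncomm_ring
    have e4 : sz β a' (t * t' - 1) < ε := by
      have f1 := sz_add_le β a' ((t - 1) * (t' - 1)) ((t - 1) + (t' - 1))
      have f2 := sz_add_le β a' (t - 1) (t' - 1)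
      have f3 := hmul (t - 1) (t' - 1)
      have f4 := sz_nonneg β a' (t - 1)
      have f5 := sz_nonneg β a' (t' - 1)
      have f6 : Cm * sz β a' (t - 1) * sz β a' (t' - 1) ≤ Cm * ε₁ := by
        have g1 : sz β a' (t' - 1) ≤ 1 := e2.le.trans hε₁1
        calc Cm * sz β a' (t - 1) * sz β a' (t' - 1) ≤ Cm * sz β a' (t - 1) * 1 :=
              mul_le_mul_of_nonneg_left g1 (by positivity)
          _ ≤ Cm * ε₁ := by
              rw [mul_one]
              exact mul_le_mul_of_nonneg_left e1.le hCm.le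
      rw [e3]
      nlinarith
    exact (sz_lt_iff β a' hε).mp e4 ⟨i, hi⟩ j
  obtain ⟨δ₁, hδ₁, hns₁⟩ := hns ε₁ hε₁0
  set m : ℝ := min δ₁ 1 with hm
  have hm0 : 0 < m := lt_min hδ₁ one_pos
  have hm1 : m ≤ 1 := min_le_right _ _
  refine ⟨m, hm0, fun b hb hPb hbs => ?_⟩
  -- the local data
  let bi : ι → F := fun i => if s i then 1 else b
  have hbi0 : ∀ i, bi i ≠ 0 := by
    intro i
    by_cases hi : s i
    · simp only [bi, if_pos hi]; exact one_ne_zero
    · simp only [bi, if_neg hi]; exact hb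
  have hbip : ∀ i, 0 < a i (bi i) := fun i => (a i).pos (hbi0 i)
  have hx : ∀ i, ∃ (x : D) (ν : F), HasNrd F d x ν ∧ a i (ν - bi i) < m * a i (bi i) ∧
      (s i → x = 1) := by
    intro i
    by_cases hi : s i
    · refine ⟨1, 1, ?_, ?_, fun _ => rfl⟩
      · intro Ω _ _ f
        rw [map_one, map_one, Matrix.det_one]
      · simp only [bi, if_pos hi, sub_self, map_zero, map_one, mul_one]
        exact hm0
    · obtain ⟨x, ν, h1, h2⟩ := hloc i hi b hb (m * a i b) (mul_pos hm0 ((a i).pos hb))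
      refine ⟨x, ν, h1, ?_, fun h => absurd h hi⟩
      simp only [bi, if_neg hi]
      exact h2
  choose x ν hxν hνb hx1 using hx
  choose η hη0 hη using fun i => nrd_near_at hD β (a i) (hxν i) (mul_pos hm0 (hbip i))
  obtain ⟨i₀, hi₀⟩ := Finite.exists_min η
  obtain ⟨r, hr0, hr1, hr2⟩ : ∃ r : ℝ, 0 < r ∧ r ≤ ε₁ ∧ ∀ i, r ≤ η i :=
    ⟨min ε₁ (η i₀), lt_min hε₁0 (hη0 i₀), min_le_left _ _, fun i =>
      (min_le_right _ _).trans (hi₀ i)⟩
  choose z hz using fun l : Fin N => wa (fun i => β.repr (x i) l) r hr0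
  set t : D := ∑ l, z l • β l with ht
  have hrep : ∀ l, β.repr t l = z l := by
    intro l
    rw [ht, β.repr_sum_self]
  have hnear : ∀ i j, a i (β.repr (t - x i) j) < r := by
    intro i j
    rw [map_sub, Finsupp.sub_apply, hrep]
    exact hz j i
  obtain ⟨μ, hμ⟩ := exists_nrd hD t
  have hμ1 : ∀ i, a i (μ - bi i) < m * a i (bi i) := by
    intro i
    have h1 := hη i t (fun j => (hnear i j).trans_le (hr2 i)) μ hμ
    have h2 : μ - bi i = (μ - ν i) + (ν i - bi i) := by ring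
    rw [h2]
    exact (ha i _ _).trans_lt (max_lt h1 (hνb i))
  have hμ2 : ∀ i, a i μ = a i (bi i) := by
    intro i
    have h1 : a i (μ - bi i) < a i (bi i) := (hμ1 i).trans_le (by
      have := hbip i
      nlinarith)
    have h2 : a i μ ≤ a i (bi i) := by
      have h3 := ha i (μ - bi i) (bi i)
      rw [sub_add_cancel] at h3
      exact h3.trans (max_le h1.le le_rfl)
    refine le_antisymm h2 (not_lt.mp fun h3 => ?_)
    have h4 := ha i (bi i - μ) μ
    rw [sub_add_cancel, ← AbsoluteValue.map_neg (a i) (bi i - μ), neg_sub] at h4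
    exact absurd (h4.trans_lt (max_lt h1 h3)) (lt_irrefl _)
  obtain ⟨i₁⟩ := hne
  have hμ0 : μ ≠ 0 := by
    rintro rfl
    have h1 := hμ2 i₁
    rw [map_zero] at h1
    exact absurd h1.symm (hbip i₁).ne'
  have hq : ∀ i, a i (b / μ - 1) < δ₁ := by
    intro i
    have h1 : b / μ - 1 = (b - μ) / μ := by field_simp
    have h2 : a i (b - μ) < m * a i μ := by
      by_cases hi : s i
      · have h3 : bi i = 1 := by simp only [bi, if_pos hi]
        have h4 := hμ1 i
        rw [hμ2 i, h3, map_one, mul_one]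
        rw [h3, map_one, mul_one] at h4
        have h5 : b - μ = (b - 1) + (1 - μ) := by ring
        rw [h5]
        refine (ha i _ _).trans_lt (max_lt (hbs i hi) ?_)
        rw [← AbsoluteValue.map_neg (a i) (1 - μ), neg_sub]
        exact h4
      · have h3 : bi i = b := by simp only [bi, if_neg hi]
        have h4 := hμ1 i
        rw [hμ2 i, h3]
        rw [h3] at h4
        rw [← AbsoluteValue.map_neg (a i) (b - μ), neg_sub]
        exact h4
    rw [h1, map_div₀, div_lt_iff₀ ((a i).pos hμ0)]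
    exact h2.trans_le (mul_le_mul_of_nonneg_right (min_le_left _ _) ((a i).nonneg _))
  obtain ⟨τ, hτ1, hτ2⟩ := hns₁ (b / μ) (div_ne_zero hb hμ0) (hP b μ t hPb hμ hμ0) hq
  refine ⟨t * τ, ?_, ?_⟩
  · have h1 := hμ.mul hτ1
    rwa [mul_div_cancel₀ b hμ0] at h1
  · refine hprod t τ (fun i hi j => ?_) (fun i _ j => hτ2 i j)
    have h1 := hnear i j
    rw [hx1 i hi] at h1
    exact h1.trans_le hr1

end Vale.Agent.P011UW2
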