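import Vale.Agent.P011UW2.H9
import Vale.Agent.P011UW2.Shift
import Vale.Agent.P011UE.Kit
import Vale.Agent.P011.H454.GW.NSur
import Vale.Agent.P011.H973.Full.PlaceNF

/-!
Reduced norms near one over number fields, with the sign conditions.
-/

open Module Topology Filter NumberField IsDedekindDomain

set_option linter.style.haveILetI false
set_option linter.unusedSectionVars false

namespace Vale.Agent.P011UW2

open Vale.Agent.P011
open Vale.Agent.P011.Arith (Z0 Pl plAbv)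
open Vale.Agent.P011.Pow (exists_delta)
open Vale.Agent.P011.H775.Top (av topk)
open Vale.Agent.P011.H677.GW (nb)
open Vale.Agent.P011.W (HasNrd Spl)
open Vale.Agent.P011.H454.GW
open Vale.Agent.P011.H308 (plHos toPl toPl_algebraMap)
open Vale.Agent.P011UE

section nf

variable {Z C : Type} [Field Z] [NumberField Z] [DivisionRing C] [Algebra Z C]
  [FiniteDimensional Z C] [Algebra.IsCentral Z C] {d : ℕ}

theorem abv_hos (w : HeightOneSpectrum (𝓞 Z)) (x : Z) :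
    (plHos Z w).abv x = plAbv (Sum.inl w : Pl Z) x := rfl

/-- The reduced norm as a homomorphism. -/
theorem exists_N (hC : finrank Z C = d ^ 2) : ∃ N : C →* Z, ∀ x, HasNrd Z d x (N x) := by
  choose ν hν using exists_nrd (F := Z) hC
  exact ⟨⟨⟨ν, (hν 1).unique hC W.HasNrd.one⟩, fun x y => (hν _).unique hC ((hν x).mul (hν y))⟩, hν⟩

/-- Reduced norms near one, at a set which contains the places where the algebra is not split. -/
theorem ns_big (h : NSUR) (hC : finrank Z C = d ^ 2) (hd : 2 ≤ d)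
    (T : Finset (HeightOneSpectrum (𝓞 Z))) (hT : T.Nonempty)
    (hS : ∀ w ∉ T, Spl C d (algebraMap Z (w.adicCompletion Z))) {ε : ℝ} (hε : 0 < ε) :
    ∃ δ : ℝ, 0 < δ ∧ ∀ b : Z, b ≠ 0 → (∀ φ : Z →+* ℝ, Spl C d φ ∨ 0 < φ b) →
      (∀ w : T, plAbv (Sum.inl w.1 : Pl Z) (b - 1) < δ) → ∃ τ : C, HasNrd Z d τ b ∧
        ∀ (w : T) j, plAbv (Sum.inl w.1 : Pl Z) ((finBasis Z C).repr (τ - 1) j) < ε := by
  classical
  obtain ⟨N, hN⟩ := exists_N hC
  have h1 := h Z C d N ⟨Or.inl inferInstance, inferInstance, hd, hC, hN⟩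
    (T.image fun w => plHos Z w) (hT.image _) (fun v hv => by
      obtain ⟨w, rfl⟩ := H973.Full.exists_eq_plHos v
      have h2 := (hS w fun e => hv (Finset.mem_image_of_mem _ e)).comp (toPl Z w)
      rwa [show (toPl Z w).comp (algebraMap Z (w.adicCompletion Z)) =
        algebraMap Z (plHos Z w).comp from RingHom.ext toPl_algebraMap] at h2) _
    (preimage_mem_comap (t := {x | ∀ v ∈ T.image fun w => plHos Z w, ∀ j,
      v.abv ((finBasis Z C).repr (x - 1) j) < ε}) ⟨ε, hε, fun _ e => e⟩)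
  obtain ⟨δ, hδ, h2⟩ := mem_nT_base.1 h1
  refine ⟨δ, hδ, fun b hb hp hbT => ?_⟩
  obtain ⟨u, hu, e⟩ := h2 b (fun v hv => by
    obtain ⟨w, hw, rfl⟩ := Finset.mem_image.1 hv
    exact hbT ⟨w, hw⟩) hb hp
  exact ⟨u, e ▸ hN _, fun w j => hu _ (Finset.mem_image_of_mem _ w.2) j⟩

/-- Reduced norms near one, at any finite set of finite places. -/
theorem ns_all (h : NSUR) (hC : finrank Z C = d ^ 2) (hd : 2 ≤ d)
    {S : Set (HeightOneSpectrum (𝓞 Z))} (hS : S.Finite) (hS0 : S.Nonempty) {ε : ℝ} (hε : 0 < ε) :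
    ∃ δ : ℝ, 0 < δ ∧ ∀ b : Z, b ≠ 0 → (∀ φ : Z →+* ℝ, Spl C d φ ∨ 0 < φ b) →
      (∀ w ∈ S, plAbv (Sum.inl w : Pl Z) (b - 1) < δ) → ∃ τ : C, HasNrd Z d τ b ∧
        ∀ w ∈ S, ∀ j, plAbv (Sum.inl w : Pl Z) ((finBasis Z C).repr (τ - 1) j) < ε := by
  classical
  obtain ⟨S₀, hS₀⟩ := H380.Good7.exists_spl_set (F := Z) (B := C) hC
  let T' : Finset (HeightOneSpectrum (𝓞 Z)) := hS.toFinset ∪ S₀
  have hm : ∀ w ∈ S, w ∈ T' := fun w hw => Finset.mem_union_left _ (hS.mem_toFinset.2 hw)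
  obtain ⟨δ, hδ, h1⟩ := shift (fun b => ∀ φ : Z →+* ℝ, Spl C d φ ∨ 0 < φ b)
    (fun b μ t hb ht hμ φ => or_iff_not_imp_left.2 fun e => by
      rw [map_div₀]
      exact div_pos ((hb φ).resolve_left e) (W.nrd_pos_of hC φ e (ht.ne_zero hC hμ) ht))
    hC (finBasis Z C) (fun w : T' => plAbv (Sum.inl w.1 : Pl Z))
    (fun w => H182.isNonarch w.1) (fun w => w.1 ∈ S) (wa_nf T')
    (fun w _ b hb ε hε => hloc_nf hC w.1 hb hε) (fun ε hε => ns_big h hC hd T'
      (hS0.elim fun w hw => ⟨w, hm w hw⟩) (fun w hw => hS₀ w fun e =>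
        hw (Finset.mem_union_right _ e)) hε) hε
  refine ⟨δ, hδ, fun b hb hp hbS => ?_⟩
  obtain ⟨τ, h2, h3⟩ := h1 b hb hp fun w hw => hbS w.1 hw
  exact ⟨τ, h2, fun w hw j => h3 ⟨w, hm w hw⟩ hw j⟩

theorem exists_eps {S : Set (HeightOneSpectrum (𝓞 Z))} (hS : S.Finite) {γ : Z0} (hγ : γ ≠ 0) :
    ∃ ε : ℝ, 0 < ε ∧ ∀ w ∈ S, ∀ y : Z, plAbv (Sum.inl w : Pl Z) y < ε → w.valuation Z y < γ := by
  choose r hr hr2 using fun w : HeightOneSpectrum (𝓞 Z) => exists_delta w hγ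
  rcases S.eq_empty_or_nonempty with rfl | hne
  · exact ⟨1, one_pos, fun w hw => hw.elim⟩
  · obtain ⟨q, _, hmin⟩ := S.exists_min_image r hS hne
    exact ⟨r q, hr q, fun w hw y hy => hr2 w y (hy.trans_le (hmin w hw))⟩

end nf

variable {k : Type} [Field k] [NumberField k] (T : Finset (Pl k)) [Nonempty T]
  (hT : ∀ p ∈ T, ∃ v : HeightOneSpectrum (𝓞 k), p = Sum.inl v)
include hT

theorem sgnP_nf : @SgnP k _ (topk (av T)) := by
  letI := topk (av T)
  intro E _ _ _ W hW c hc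
  have hE : NumberField E := NumberField.of_module_finite k E
  obtain ⟨γ, hγ0, -, hγ⟩ := exists_gamma (Z := E) (Basis.singleton (Fin 1) E) T hT hW
  have hfin := abv_finite (k := k) (Z := E) T
  obtain ⟨ε, hε, h⟩ := exists_eps hfin hγ0
  obtain ⟨a, ha⟩ := Arith.approx (F := E) (Sum.inl '' abv T E ∪ Set.range Sum.inr)
    ((hfin.image _).union (Set.finite_range _)) (Sum.elim (fun _ => 1) fun _ => c)
    (Sum.elim (fun _ => ε) fun ψ => |ψ c|) (by
      rintro (w | ψ)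
      exacts [hε, abs_pos.2 ((_root_.map_ne_zero ψ).2 hc)])
  refine ⟨a, hγ a fun w hw l => h w hw _ ?_, fun ψ => ?_⟩
  · rw [Basis.singleton_repr]
    exact ha (.inl w) (.inl ⟨w, hw, rfl⟩)
  have h1 : |ψ (a - c)| < |ψ c| := ha (.inr ψ) (.inr ⟨ψ, rfl⟩)
  rw [map_sub, ← sq_lt_sq] at h1
  nlinarith [sq_nonneg (ψ a)]

theorem nSurS_nf (h : NSUR) : @NSurS k _ (topk (av T)) := by
  letI := topk (av T)
  haveI := H775.Top.topk_isTopologicalDivisionRing (av T)
  haveI := H775.Top.topk_t2 (av T)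
  intro Z _ _ _ C _ _ _ _ _ _ d hC V hV
  have hZ : NumberField Z := NumberField.of_module_finite k Z
  rcases Nat.lt_or_ge d 2 with hd | hd
  · obtain rfl : d = 1 := by have := W.deg_pos hC; omega
    refine ((H677.GW.nb_alg k (IsScalarTower.toAlgHom k Z C)).eventually_mem hV).mono
      fun b hb _ => ⟨_, hb, ?_⟩
    simpa using W.HasNrd.algMap (D := C) (d := 1) b
  obtain ⟨γ, hγ0, -, hγ⟩ := exists_gamma (finBasis Z C) T hT hV
  have hfin := abv_finite (k := k) (Z := Z) T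
  obtain ⟨ε, hε, hεγ⟩ := exists_eps hfin hγ0
  obtain ⟨δ, hδ, hns⟩ := ns_all h hC hd hfin (by
    obtain ⟨p, hp⟩ := ‹Nonempty T›
    obtain ⟨v, rfl⟩ := hT p hp
    exact (Arith.exists_above (E := Z) v).imp fun w hw => ⟨v, hp, hw⟩) hε
  choose c hc using fun w : HeightOneSpectrum (𝓞 Z) => exists_unit_abv w hδ
  obtain ⟨γ', hγ'0, -, hγ'⟩ := exists_le_all hfin (fun w => w.valuation Z (c w : Z))
    (fun w _ => (Valuation.ne_zero_iff _).mpr (c w).ne_zero)
  filter_upwards [eventually_val (Z := Z) T hγ'0, H677.GW.nb_ne_zero k (C := Z)] with b hb hb0 hp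
  obtain ⟨τ, h1, h2⟩ := hns b hb0 hp fun w hw => hc w _ ((hb w hw).trans_le (hγ' w hw))
  exact ⟨τ, hγ τ fun w hw l => hεγ w hw _ (h2 w hw l), h1⟩

end Vale.Agent.P011UW2
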