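import Vale.Agent.P011UW2.Step

/-!
Wang's theorem near one in prime power degree, from Hilbert's theorem 90 for reduced norms.
-/

set_option linter.unusedSectionVars false
set_option linter.unusedSimpArgs false

open Module Filter Topology TensorProduct Matrix IntermediateField

namespace Vale.Agent.P011UW2

open Vale.Agent.P011.W (HasNrd deg_pos exists_maxfield)
open Vale.Agent.P011S (exists_split)
open Vale.Agent.P011.H505.Wang (hasNrd_norm cyclic_aux exists_coprime' one_of_deg_one)
open Vale.Agent.P011.H677.GW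

variable (k : Type) [Field k] [TopologicalSpace k] [IsTopologicalDivisionRing k] [T2Space k]
  {A : Type} [AddCommGroup A]

/-- **Wang's theorem near one in prime power degree**, centres separable over the base field. -/
theorem sk9 (hConj : ConjP k A) (hBase : BaseP k A) [Infinite k]
    {M m' a p : ℕ} (hMA : ∀ x : A, M • x = 0) (hMk : (M : k) ≠ 0) (hroot : RootP k M)
    (hp : p.Prime) (hNS : H9 k p) (hM : M = p ^ a * m') (e : ℕ) : ∀ (Z C : Type) [Field Z]
    [Algebra k Z] [FiniteDimensional k Z] [Algebra.IsSeparable k Z] [DivisionRing C]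
    [Algebra Z C] [Algebra k C]
    [IsScalarTower k Z C] [FiniteDimensional Z C] [Algebra.IsCentral Z C]
    (_ : finrank Z C = (p ^ e) ^ 2) (F : C → A) (_ : Good k F),
    ∀ᶠ x in nb k C, HasNrd Z (p ^ e) x 1 → m' • F x = 0 := by
  rcases Nat.eq_zero_or_pos a with ha | ha
  · subst ha
    rw [pow_zero, one_mul] at hM
    subst hM
    intro Z C _ _ _ _ _ _ _ _ _ _ _ F _
    exact Filter.Eventually.of_forall fun x _ => hMA _
  have hpk : (p : k) ≠ 0 := by
    intro h
    apply hMk
    obtain ⟨b, rfl⟩ : ∃ b, a = b + 1 := ⟨a - 1, by omega⟩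
    rw [hM, Nat.cast_mul, Nat.cast_pow, h, pow_succ, mul_zero, zero_mul]
  induction e with
  | zero =>
    intro Z C _ _ _ _ _ _ _ _ _ _ hC F hF
    refine Filter.Eventually.of_forall fun x hx => ?_
    rw [pow_zero] at hC hx
    obtain ⟨f⟩ := exists_split (K := Z) (D := C) hC (AlgebraicClosure Z)
    have h1 : x = 1 := one_of_deg_one (by rw [hC, one_pow]) f (by rw [hx, map_one])
    rw [h1, hF.one, smul_zero]
  | succ e ih =>
    intro Z C _ _ _ _ _ _ _ _ _ _ hC F hF
    have hpZ : (p : Z) ≠ 0 := by
      intro h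
      apply hpk
      apply (algebraMap k Z).injective
      rw [map_natCast, h, map_zero]
    have hdZ : ((p ^ (e + 1) : ℕ) : Z) ≠ 0 := by
      rw [Nat.cast_pow]
      exact pow_ne_zero _ hpZ
    refine root_near k hMA hroot hC hdZ hF ?_
    intro L _ _ _ _ _ j0 hL
    have hsep : Algebra.IsSeparable Z L := by
      by_contra hcon
      have h1 := LinearMap.congr_fun (Algebra.trace_eq_zero_of_not_isSeparable hcon) (1 : L)
      rw [LinearMap.zero_apply, ← map_one (algebraMap Z L), Algebra.trace_algebraMap, hL,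
        nsmul_eq_mul, mul_one] at h1
      exact hdZ h1
    obtain ⟨N, _, _, _, _, _, hNsep, E, L', Zc, hcop, hL', hmem, hZL, hZg, hZ, hlift⟩ :=
      exists_cyclic_sep (F := Z) (L := L) hp hL
    let _ : Algebra k N := Algebra.compHom N (algebraMap k Z)
    have hkZN : IsScalarTower k Z N := IsScalarTower.of_algebraMap_eq fun x => rfl
    have hkLN : IsScalarTower k L N := IsScalarTower.of_algebraMap_eq fun x => by
      rw [IsScalarTower.algebraMap_apply k Z L, ← IsScalarTower.algebraMap_apply Z L N]
      rfl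
    have hkZE : IsScalarTower k Z E := IsScalarTower.of_algebraMap_eq fun x => rfl
    have hkEN : IsScalarTower k E N := IsScalarTower.of_algebraMap_eq fun x => rfl
    have hkEL : IsScalarTower k E L' := IsScalarTower.of_algebraMap_eq fun x => rfl
    have hkEZ : IsScalarTower k E Zc := IsScalarTower.of_algebraMap_eq fun x => rfl
    have hfE : FiniteDimensional k E := Module.Finite.trans Z E
    have hfZc : FiniteDimensional k Zc := Module.Finite.trans E Zc
    have hiZ : Infinite Z := Infinite.of_injective _ (algebraMap k Z).injective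
    have hiE : Infinite E := Infinite.of_injective _ (algebraMap k E).injective
    have hsE : Algebra.IsSeparable k E := Algebra.IsSeparable.trans k Z E
    have hsZc : Algebra.IsSeparable k Zc := Algebra.IsSeparable.trans k E Zc
    obtain ⟨D', _, _, _, _, ψ, hD'⟩ := exists_coprime' hp hC E hcop
    let _ : Algebra k D' := Algebra.compHom D' (algebraMap k E)
    have hkED : IsScalarTower k E D' := IsScalarTower.of_algebraMap_eq fun x => rfl
    let ι : C →+* D' := (ψ : E ⊗[Z] C →+* D').comp
      (Algebra.TensorProduct.includeRight : C →ₐ[Z] E ⊗[Z] C).toRingHom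
    have hι : ∀ x : C, ι x = ψ (1 ⊗ₜ x) := fun x => rfl
    have hιF : ∀ x : Z, ι (algebraMap Z C x) = algebraMap E D' (algebraMap Z E x) := by
      intro x
      have h2 : (1 : E) ⊗ₜ[Z] (algebraMap Z C x) = (algebraMap Z E x) ⊗ₜ[Z] (1 : C) := by
        rw [Algebra.algebraMap_eq_smul_one, Algebra.algebraMap_eq_smul_one,
          TensorProduct.tmul_smul, TensorProduct.smul_tmul']
      rw [hι, ← ψ.commutes, Algebra.TensorProduct.algebraMap_apply, h2]
      rfl
    have hιn : ∀ (x : C) (y : Z), HasNrd Z (p ^ (e + 1)) x y →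
        HasNrd E (p ^ (e + 1)) (ι x) (algebraMap Z E y) := by
      intro x y hxy Ω _ _ f
      let _ : Algebra Z Ω := ((algebraMap E Ω).comp (algebraMap Z E)).toAlgebra
      let f' : C →ₐ[Z] Matrix (Fin (p ^ (e + 1))) (Fin (p ^ (e + 1))) Ω :=
        { (f : D' →+* Matrix (Fin (p ^ (e + 1))) (Fin (p ^ (e + 1))) Ω).comp ι with
          commutes' := fun c => by
            change f (ι (algebraMap Z C c)) = _
            rw [hιF, f.commutes]
            rfl }
      exact hxy Ω f'
    obtain ⟨F1, hF1, hF1ι⟩ := hBase Z C E F hF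
    let ψk : D' →ₐ[k] E ⊗[Z] C := (ψ.symm : D' →ₐ[E] E ⊗[Z] C).restrictScalars k
    have hF2 : Good k fun x => F1 (ψk x) := hF1.comp ψk
    obtain ⟨j, hj⟩ := hlift D' (ι.comp (j0 : L →+* C)) (fun x => by
      rw [RingHom.comp_apply]
      change ι (j0 (algebraMap Z L x)) = _
      rw [j0.commutes, hιF])
    let _ : Algebra Zc L' := (IntermediateField.inclusion hZL).toRingHom.toAlgebra
    have : IsScalarTower E Zc L' := IsScalarTower.of_algebraMap_eq fun x =>
      ((IntermediateField.inclusion hZL).commutes x).symm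
    have h1 := step9 k hConj hp (m' := m') hD' hL' j hZ hNS
      (fun C' _ _ _ _ _ _ hC' F' hF' => ih Zc C' hC' F' hF') (fun x => F1 (ψk x)) hF2
    -- back to `L`
    let i : L →ₐ[k] L' :=
      { toFun := fun l => ⟨algebraMap L N l, hmem l⟩
        map_one' := Subtype.ext (map_one _)
        map_mul' := fun x y => Subtype.ext (map_mul _ _ _)
        map_zero' := Subtype.ext (map_zero _)
        map_add' := fun x y => Subtype.ext (map_add _ _ _)
        commutes' := fun x => Subtype.ext (by
          change algebraMap L N (algebraMap k L x) = algebraMap k N x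
          rw [← IsScalarTower.algebraMap_apply k L N]) }
    have hi : ∀ l, j (i l) = ι (j0 l) := fun l => hj l (hmem l)
    have h2 := (nb_alg k i).eventually h1
    have h3 := (nb_alg k (j0.restrictScalars k)).eventually hF1ι
    filter_upwards [h2, h3] with u h4 h5 hu
    have h6 : Algebra.norm E (i u) = 1 := by
      have h7 := hasNrd_norm hD' hL' j (i u)
      rw [hi] at h7
      have h8 := hιn _ _ (hasNrd_norm hC hL j0 u)
      rw [hu, map_one] at h8
      exact HasNrd.unique hD' h7 h8
    have h9 := h4 h6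
    have h10 : ψk (j (i u)) = 1 ⊗ₜ (j0 u) := by
      rw [hi, hι]
      exact ψ.symm_apply_apply _
    have h11 : F1 (1 ⊗ₜ (j0 u)) = finrank Z E • F (j0 u) := h5
    change m' • F1 (ψk (j (i u))) = 0 at h9
    rw [h10, h11] at h9
    have h12 : finrank Z E • (m' • F (j0 u)) = 0 := by rw [smul_comm]; exact h9
    have h13 : p ^ a • (m' • F (j0 u)) = 0 := by rw [smul_smul, ← hM]; exact hMA _
    have h14 : (Nat.gcd (finrank Z E) (p ^ a)) • (m' • F (j0 u)) = 0 :=
      addOrderOf_dvd_iff_nsmul_eq_zero.mp (Nat.dvd_gcd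
        (addOrderOf_dvd_of_nsmul_eq_zero h12) (addOrderOf_dvd_of_nsmul_eq_zero h13))
    rwa [(Nat.Coprime.pow_right a hcop).gcd_eq_one, one_smul] at h14


end Vale.Agent.P011UW2
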