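import Vale.Agent.P011.H677.GW.Sep

/-!
Wang's theorem near one: the inductive step, from Hilbert's theorem 90 for reduced norms.
-/

set_option linter.unusedSectionVars false
set_option linter.unusedSimpArgs false

open Module Filter Topology TensorProduct Matrix

namespace Vale.Agent.P011UW2

open Vale.Agent.P011.W (HasNrd hasNrd_iff deg_pos exists_centralizer)
open Vale.Agent.P011.H505.Wang (skolem hasNrd_norm)
open Vale.Agent.P011.H677.GW

/-- Hilbert's theorem 90 near one, in degree `p`, inside the group of the reduced norms. -/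
def H9 (k : Type) [Field k] [TopologicalSpace k] (p : ℕ) : Prop :=
  ∀ (E Z : Type) [Field E] [Field Z] [Algebra k E] [Algebra k Z] [Algebra E Z]
    [IsScalarTower k E Z] [FiniteDimensional k E] [FiniteDimensional E Z] [IsGalois E Z],
    finrank E Z = p → ∀ σ : Z ≃ₐ[E] Z, (∀ τ, τ ∈ Subgroup.zpowers σ) →
    ∀ (C : Type) [DivisionRing C] [Algebra Z C] [Algebra k C] [IsScalarTower k Z C]
    [FiniteDimensional Z C] [Algebra.IsCentral Z C] (d : ℕ), finrank Z C = d ^ 2 →
    ∀ V ∈ nb k C, ∀ᶠ a in nb k Z, Algebra.norm E a = 1 → (∃ x : C, HasNrd Z d x a) →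
      ∃ y, (∃ t ∈ V, HasNrd Z d t y) ∧ y ≠ 0 ∧ a * σ y = y

variable (k : Type) [Field k] [TopologicalSpace k] [IsTopologicalDivisionRing k] [T2Space k]

/-- **The inductive step.** -/
theorem step9 {A : Type} [AddCommGroup A] (hConj : ConjP k A)
    [Infinite k] {p e m' : ℕ} (hp : p.Prime) {E D : Type} [Field E] [Algebra k E]
    [FiniteDimensional k E] [DivisionRing D] [Algebra E D] [Algebra k D] [IsScalarTower k E D]
    [FiniteDimensional E D] [Algebra.IsCentral E D] (hD : finrank E D = (p ^ (e + 1)) ^ 2)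
    {L Z : Type} [Field L] [Algebra E L] [Algebra k L] [IsScalarTower k E L]
    (hL : finrank E L = p ^ (e + 1)) (j : L →ₐ[E] D) [Field Z] [Algebra E Z] [Algebra k Z]
    [IsScalarTower k E Z] [Algebra Z L] [IsScalarTower E Z L] [FiniteDimensional E Z]
    [IsGalois E Z] (hZ : finrank E Z = p)
    (hNS : H9 k p)
    (IH : ∀ (C : Type) [DivisionRing C] [Algebra Z C] [Algebra k C] [IsScalarTower k Z C]
      [FiniteDimensional Z C] [Algebra.IsCentral Z C] (_ : finrank Z C = (p ^ e) ^ 2)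
      (F : C → A), Good k F → ∀ᶠ x in nb k C, HasNrd Z (p ^ e) x 1 → m' • F x = 0)
    (F : D → A) (hF : Good k F) :
    ∀ᶠ u in nb k L, Algebra.norm E u = 1 → m' • F (j u) = 0 := by
  have hiE : Infinite E := Infinite.of_injective _ (algebraMap k E).injective
  have hiZ : Infinite Z := Infinite.of_injective _ (algebraMap k Z).injective
  have hfL : FiniteDimensional E L :=
    Module.finite_of_finrank_pos (by rw [hL]; exact pow_pos hp.pos _)
  have hfZL : FiniteDimensional Z L := Module.Finite.of_restrictScalars_finite E Z L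
  have hfkZ : FiniteDimensional k Z := Module.Finite.trans E Z
  have hfkD : FiniteDimensional k D := Module.Finite.trans E D
  have hkZL : IsScalarTower k Z L := IsScalarTower.of_algebraMap_eq fun x => by
    rw [IsScalarTower.algebraMap_apply k E Z, ← IsScalarTower.algebraMap_apply E Z L,
      ← IsScalarTower.algebraMap_apply k E L]
  let jZ : Z →ₐ[E] D := j.comp (IsScalarTower.toAlgHom E Z L)
  have hjZ : ∀ z, jZ z = j (algebraMap Z L z) := fun z => rfl
  obtain ⟨C, _, _, _, _, ι, hC, hιZ, hιc⟩ := exists_centralizer (F := E) (D := D) (m := p ^ e)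
    (n := p) (by rw [hD, pow_succ' p e]) hZ hp.pos jZ
  have hιinj : Function.Injective ι := ι.injective
  let _ : Algebra k C := Algebra.compHom C (algebraMap k Z)
  have hkZC : IsScalarTower k Z C := IsScalarTower.of_algebraMap_eq fun x => rfl
  have hfkC : FiniteDimensional k C := Module.Finite.trans Z C
  have hιk : ∀ c : k, ι (algebraMap k C c) = algebraMap k D c := by
    intro c
    rw [IsScalarTower.algebraMap_apply k Z C, hιZ, IsScalarTower.algebraMap_apply k E Z,
      jZ.commutes, ← IsScalarTower.algebraMap_apply k E D]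
  let ιk : C →ₐ[k] D := { ι with commutes' := hιk }
  have hιιk : ∀ x, ιk x = ι x := fun x => rfl
  -- the maximal subfield in the centralizer
  have hcomm : ∀ l z, j l * jZ z = jZ z * j l := by
    intro l z
    rw [hjZ, ← map_mul, ← map_mul, mul_comm]
  choose c hc using fun l => hιc (j l) (hcomm l)
  let jC : L →ₐ[Z] C :=
    { toFun := c
      map_one' := hιinj (by rw [hc, map_one, map_one])
      map_mul' := fun x y => hιinj (by rw [hc, map_mul, map_mul, hc, hc])
      map_zero' := hιinj (by rw [hc, map_zero, map_zero])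
      map_add' := fun x y => hιinj (by rw [hc, map_add, map_add, hc, hc])
      commutes' := fun z => hιinj (by rw [hc, hιZ, hjZ]) }
  have hjC : ∀ l, ι (jC l) = j l := hc
  have hZL : finrank Z L = p ^ e := by
    have h1 := finrank_mul_finrank E Z L
    rw [hZ, hL, pow_succ'] at h1
    exact Nat.eq_of_mul_eq_mul_left hp.pos h1
  -- the cyclic group
  have : Fact p.Prime := ⟨hp⟩
  have hcard : Nat.card (Z ≃ₐ[E] Z) = p := by rw [IsGalois.card_aut_eq_finrank, hZ]
  have hcyc : IsCyclic (Z ≃ₐ[E] Z) := isCyclic_of_prime_card hcard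
  obtain ⟨σ, hσ⟩ := hcyc.exists_generator
  -- Skolem-Noether
  obtain ⟨g, hg0, hg⟩ := skolem jZ (jZ.comp (σ : Z →ₐ[E] Z))
  have hg' : ∀ z, g * jZ z = jZ (σ z) * g := hg
  have hcomm' : ∀ x z, ι x * jZ z = jZ z * ι x := by
    intro x z
    rw [← hιZ, ← map_mul, ← map_mul, Algebra.commutes]
  have hconj : ∀ x z, g * ι x * g⁻¹ * jZ z = jZ z * (g * ι x * g⁻¹) := by
    intro x z
    obtain ⟨w, rfl⟩ := σ.surjective z
    have h1 : g⁻¹ * jZ (σ w) = jZ w * g⁻¹ := by
      have h2 : jZ (σ w) = g * jZ w * g⁻¹ := by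
        rw [hg', mul_assoc, mul_inv_cancel₀ hg0, mul_one]
      rw [h2, ← mul_assoc, ← mul_assoc, inv_mul_cancel₀ hg0, one_mul]
    calc g * ι x * g⁻¹ * jZ (σ w) = g * ι x * (g⁻¹ * jZ (σ w)) := mul_assoc _ _ _
      _ = g * (ι x * jZ w) * g⁻¹ := by rw [h1]; simp only [mul_assoc]
      _ = g * jZ w * ι x * g⁻¹ := by rw [hcomm']; simp only [mul_assoc]
      _ = jZ (σ w) * (g * ι x * g⁻¹) := by rw [hg']; simp only [mul_assoc]
  choose κ0 hκ0 using fun x => hιc (g * ι x * g⁻¹) (hconj x)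
  let κ : C →+* C :=
    { toFun := κ0
      map_one' := hιinj (by rw [hκ0, map_one, mul_one, mul_inv_cancel₀ hg0])
      map_mul' := fun x y => hιinj (by
        rw [hκ0, map_mul, map_mul, hκ0, hκ0]
        simp only [mul_assoc, inv_mul_cancel_left₀ hg0])
      map_zero' := hιinj (by rw [hκ0, map_zero, mul_zero, zero_mul])
      map_add' := fun x y => hιinj (by rw [hκ0, map_add, map_add, hκ0, hκ0, mul_add, add_mul]) }
  have hκ : ∀ x, ι (κ x) = g * ι x * g⁻¹ := hκ0
  have hκZ : ∀ z, κ (algebraMap Z C z) = algebraMap Z C (σ z) := by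
    intro z
    apply hιinj
    rw [hκ, hιZ, hιZ, hg', mul_assoc, mul_inv_cancel₀ hg0, mul_one]
  let κk : C →ₐ[k] C := { κ with
    commutes' := fun x => by
      change κ (algebraMap k C x) = algebraMap k C x
      rw [IsScalarTower.algebraMap_apply k Z C, hκZ, IsScalarTower.algebraMap_apply k E Z,
        AlgEquiv.commutes] }
  have hκκk : ∀ x, κk x = κ x := fun x => rfl
  let jCk : L →ₐ[k] C := jC.restrictScalars k
  have hjjCk : ∀ x, jCk x = jC x := fun x => rfl
  have hι0 : ∀ x : C, x ≠ 0 → ι x ≠ 0 := fun x hx => by rwa [Ne, map_eq_zero]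
  have hF' : Good k fun x => F (ι x) := hF.comp ιk
  -- the induction hypothesis
  have hIH := IH C hC (fun x => F (ι x)) hF'
  let v : L × C → C := fun q => jC q.1 * κ q.2 * q.2⁻¹
  have htj : Tendsto (fun q : L × C => jC q.1) (nb k L ×ˢ nb k C) (nb k C) :=
    (nb_alg k jCk).comp tendsto_fst
  have htκ : Tendsto (fun q : L × C => κ q.2) (nb k L ×ˢ nb k C) (nb k C) :=
    (nb_alg k κk).comp tendsto_snd
  have hti : Tendsto (fun q : L × C => q.2⁻¹) (nb k L ×ˢ nb k C) (nb k C) :=
    (nb_inv k).comp tendsto_snd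
  have htjκ : Tendsto (fun q : L × C => jC q.1 * κ q.2) (nb k L ×ˢ nb k C) (nb k C) :=
    (nb_mul k (A := C)).comp (htj.prodMk htκ)
  have htv : Tendsto v (nb k L ×ˢ nb k C) (nb k C) :=
    (nb_mul k (A := C)).comp (htjκ.prodMk hti)
  have e1 := htv.eventually hIH
  have e2 : ∀ᶠ q in nb k L ×ˢ nb k C, F (ι (v q * q.2)) = F (ι (v q)) + F (ι q.2) :=
    (htv.prodMk tendsto_snd).eventually hF'
  have e3 : ∀ᶠ q in nb k L ×ˢ nb k C, F (ι (jC q.1 * κ q.2)) = F (ι (jC q.1)) + F (ι (κ q.2)) :=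
    (htj.prodMk htκ).eventually hF'
  have e4 : ∀ᶠ q in nb k L ×ˢ nb k C, F (g * ι q.2 * g⁻¹) = F (ι q.2) :=
    ((nb_alg k ιk).comp tendsto_snd).eventually (hConj D F hF g hg0)
  have e5 : ∀ᶠ q in nb k L ×ˢ nb k C, q.2 ≠ 0 :=
    tendsto_snd.eventually (nb_ne_zero k (C := C))
  have e6 : ∀ᶠ q in nb k L ×ˢ nb k C, HasNrd Z (p ^ e) (v q) 1 → m' • F (j q.1) = 0 := by
    filter_upwards [e1, e2, e3, e4, e5] with q h1 h2 h3 h4 h5 h6
    have h7 : v q * q.2 = jC q.1 * κ q.2 := by
      change jC q.1 * κ q.2 * q.2⁻¹ * q.2 = _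
      rw [inv_mul_cancel_right₀ h5]
    rw [h7, h3, hκ, h4, hjC] at h2
    rw [add_right_cancel h2]
    exact h1 h6
  obtain ⟨pa, hpa, pb, hpb, hab⟩ := Filter.eventually_prod_iff.mp e6
  have e8 := (nb_norm k (Z := Z) (A := L)).eventually (hNS E Z hZ σ hσ C (p ^ e) hC
    {t | pb t ∧ t ≠ 0} (hpb.and (nb_ne_zero k (C := C))))
  filter_upwards [hpa, e8] with u h1 h2 hu
  have hu0 : u ≠ 0 := by
    rintro rfl
    rw [Algebra.norm_zero] at hu
    exact zero_ne_one hu
  have hn : Algebra.norm E (Algebra.norm Z u) = 1 := by rw [Algebra.norm_norm, hu]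
  have hy00 : HasNrd Z (p ^ e) (jC u) (Algebra.norm Z u) := hasNrd_norm hC hZL jC u
  obtain ⟨y, ⟨t, ⟨ht1, ht0⟩, ht⟩, hy0, hy⟩ := h2 hn ⟨_, hy00⟩
  have hκt : HasNrd Z (p ^ e) (κ t) (σ y) := by
    rw [hasNrd_iff]
    intro Ω _ φ f hf
    have h1 := hasNrd_iff.mp ht Ω (φ.comp (σ : Z →+* Z)) (f.comp κ) (by
      intro z
      rw [RingHom.comp_apply, hκZ, hf]
      rfl)
    exact h1
  have hv : HasNrd Z (p ^ e) (jC u * κ t * t⁻¹) 1 := by
    have h1 := (hy00.mul hκt).mul (ht.inv ht0)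
    have e1 : Algebra.norm Z u * σ y * y⁻¹ = 1 := by
      rw [hy, mul_inv_cancel₀ hy0]
    rwa [e1] at h1
  exact hab h1 ht1 hv

end Vale.Agent.P011UW2
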